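import Vale.Agent.P168.TreeRep.Zero

/-!
P168: the law of the trees of replicas represents the recursion of exponential means. Along the
factor `1 - t F` the derivative of the recursion is a mean over trees of replicas, whose derivative
is the same mean with one more replica, and the remainder of the expansion at `t = 0` decays
geometrically.
-/

open MeasureTheory ProbabilityTheory Filter Topology Finset

noncomputable section

namespace Vale.Agent.P168.TreeRep

open Lvls

theorem czd_cons {K : ℕ} {X : Type} [MeasurableSpace X] (ν : Measure X) (m : ℕ → ℝ)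
    (H : (Fin (K + 1) → X) → ℝ) (x : X) : ∀ d, d ≤ K → ∀ y : Fin K → X,
    czd ν m H d (Fin.cons x y) =
      czd ν (fun l => m (l + 1)) (fun y => H (Fin.cons x y)) d y
  | 0, _, y => rfl
  | d + 1, hd, y => by
    obtain ⟨l, hl⟩ : ∃ l, K - (d + 1) = l := ⟨_, rfl⟩
    have hu : ∀ z : X, upd (Fin.cons x y : Fin (K + 1) → X) (l + 1) z = Fin.cons x (upd y l z) :=
      fun z => by
        funext i
        cases i using Fin.cases <;> simp [upd]
    simp only [czd, show K + 1 - (d + 1) = l + 1 by omega, hl, hu,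
      czd_cons ν m H x d (by omega)]

theorem casc_eq {X : Type} [MeasurableSpace X] (ν : Measure X) : ∀ (K : ℕ) (m : ℕ → ℝ)
    (H : (Fin K → X) → ℝ) (y : Fin K → X),
    P157.Casc.casc ν K (fun l : Fin K => m l) H = czd ν m H K y
  | 0, m, H, y => by
    simp only [P157.Casc.casc, czd]
    exact congrArg H (funext fun i => i.elim0)
  | K + 1, m, H, y => by
    have hu : ∀ x : X, upd y 0 x = Fin.cons x (Fin.tail y) := fun x => by
      funext i
      cases i using Fin.cases <;> simp [upd, Fin.tail]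
    simp only [P157.Casc.casc, czd, Nat.sub_self, hu, czd_cons ν m H _ K le_rfl, Fin.val_zero,
      Fin.val_succ]
    congr 2
    refine integral_congr_ae (ae_of_all _ fun x => ?_)
    simp only
    rw [casc_eq ν K (fun l => m (l + 1)) (fun z => H (Fin.cons x z)) (Fin.tail y)]

section Series

variable {K : ℕ} {X : Type} [MeasurableSpace X] (ν : Measure X) (F : (Fin K → X) → ℝ)

/-- The logarithm of the factor at time `t`. -/
def leaf (t : ℝ) (y : Fin K → X) : ℝ := Real.log (1 - t * F y)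

/-- The tilted deficit at time `t`. -/
def defi (t : ℝ) (y : Fin K → X) : ℝ := F y / (1 - t * F y)

/-- The mean over trees of `n + 1` replicas of the product of their deficits. -/
def moment (y0 : Fin K → X) (t : ℝ) (n : ℕ) : ℝ :=
  EX ν (leaf F t) y0 n fun _ ys => ∏ a, defi F t (ys a)

variable {ν F} {δ : ℝ}

theorem den_lower (hδ : 0 < δ) (hδ1 : δ ≤ 1) {f t : ℝ} (h0 : 0 ≤ f) (h1 : f ≤ 1 - δ)
    (ht : t ∈ Set.Ioo (-1) (1 + δ)) : δ ^ 2 ≤ 1 - t * f := by
  rcases le_total t 0 with h | h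
  · nlinarith [mul_nonpos_of_nonpos_of_nonneg h h0]
  · nlinarith [mul_le_mul ht.2.le h1 h0 (by linarith)]

variable (hm : Measurable F) (hδ : 0 < δ) (hδ1 : δ ≤ 1) (hF : ∀ y, 0 ≤ F y ∧ F y ≤ 1 - δ)
include hm hδ hδ1 hF

theorem leaf_smooth :
    Smooth (Set.Ioo (-1) (1 + δ)) (leaf F) fun t y => -defi F t y := by
  have hd : ∀ t ∈ Set.Ioo (-1 : ℝ) (1 + δ), ∀ y, δ ^ 2 ≤ 1 - t * F y := fun t ht y =>
    den_lower hδ hδ1 (hF y).1 (hF y).2 ht
  have h : Smooth (Set.Ioo (-1) (1 + δ)) (fun t y => 1 - t * F y) fun _ y => -F y := by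
    refine ⟨fun t _ => (hm.const_mul t).const_sub 1, fun t _ => hm.neg,
      ⟨3, fun t ht y => ?_⟩, fun t _ y => ?_⟩
    · obtain ⟨h0, h1⟩ := hF y
      obtain ⟨t0, t1⟩ := ht
      refine ⟨abs_le.2 ⟨?_, ?_⟩, abs_le.2 ⟨by linarith, by linarith⟩⟩
      · nlinarith [den_lower hδ hδ1 h0 h1 ⟨t0, t1⟩]
      · nlinarith
    · simpa using ((hasDerivAt_id t).mul_const (F y)).const_sub 1
  exact (h.log (by positivity) hd).congr (fun t y => rfl) fun t _ y => by
    simp [defi, neg_div]

theorem defi_smooth :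
    Smooth (Set.Ioo (-1) (1 + δ)) (defi F) fun t y => defi F t y * defi F t y := by
  have hd : ∀ t ∈ Set.Ioo (-1 : ℝ) (1 + δ), ∀ y, δ ^ 2 ≤ 1 - t * F y := fun t ht y =>
    den_lower hδ hδ1 (hF y).1 (hF y).2 ht
  have h2 : 0 < δ ^ 2 := by positivity
  have hmu : ∀ t, Measurable (defi F t) := fun t => hm.div ((hm.const_mul t).const_sub 1)
  have hb : ∀ t ∈ Set.Ioo (-1 : ℝ) (1 + δ), ∀ y, |defi F t y| ≤ 1 / δ ^ 2 := fun t ht y => by
    obtain ⟨h0, h1⟩ := hF y
    rw [defi, abs_of_nonneg (div_nonneg h0 (h2.le.trans (hd t ht y)))]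
    exact div_le_div₀ zero_le_one (by linarith) h2 (hd t ht y)
  refine ⟨fun t _ => hmu t, fun t _ => (hmu t).mul (hmu t),
    ⟨1 / δ ^ 2 + 1 / δ ^ 2 * (1 / δ ^ 2), fun t ht y => ⟨?_, ?_⟩⟩, fun t ht y => ?_⟩
  · exact (hb t ht y).trans (le_add_of_nonneg_right (by positivity))
  · rw [abs_mul]
    exact (mul_le_mul (hb t ht y) (hb t ht y) (abs_nonneg _) (by positivity)).trans
      (le_add_of_nonneg_left (by positivity))
  · have hne : 1 - t * F y ≠ 0 := (h2.trans_le (hd t ht y)).ne'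
    have h := (hasDerivAt_const t (F y)).div
      (((hasDerivAt_id t).mul_const (F y)).const_sub 1) hne
    refine h.congr_deriv ?_
    simp only [defi, id_eq]
    field_simp
    ring

theorem prod_smooth {n : ℕ} (S : Finset (Fin n)) :
    Smooth (Set.Ioo (-1) (1 + δ)) (fun t (ys : Fin n → Fin K → X) => ∏ a ∈ S, defi F t (ys a))
      fun t ys => (∏ a ∈ S, defi F t (ys a)) * ∑ a ∈ S, defi F t (ys a) := by
  classical
  induction S using Finset.induction_on with
  | empty =>
    exact (Smooth.const (c := fun _ : Fin n → Fin K → X => (1 : ℝ)) measurable_const (B := 1)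
      fun _ => by simp).congr (fun t a => by simp) fun t _ a => by simp
  | insert i S hi ih =>
    exact (((defi_smooth hm hδ hδ1 hF).comp (φ := fun ys : Fin n → Fin K → X => ys i)
      (measurable_pi_apply i)).mul ih).congr (fun t a => prod_insert hi) fun t _ a => by
        rw [prod_insert hi, sum_insert hi]; ring

variable [IsProbabilityMeasure ν]

theorem moment_deriv (y0 : Fin K → X) (n : ℕ) {t : ℝ} (ht : t ∈ Set.Ioo (-1) (1 + δ)) :
    HasDerivAt (fun t => moment ν F y0 t n) (((n : ℝ) + 1) * moment ν F y0 t (n + 1)) t := by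
  refine (EX_deriv isOpen_Ioo (leaf_smooth hm hδ hδ1 hF) y0 n
    (fun U => prod_smooth hm hδ hδ1 hF univ) t ht).congr_deriv ?_
  rw [moment, EX, ← EX_const_mul y0 _ n]
  refine EX_congr y0 n fun U ys hc => ?_
  simp only [step, Fin.prod_univ_castSucc (n := n + 1), Fin.snoc_castSucc, Fin.snoc_last,
    T_const_mul _ _ (Fin.is_le _)]
  rw [sum_congr rfl fun p _ => mul_left_comm _ _ _, ← mul_sum,
    sum_rowW hc.1 (φ := fun b l => T ν (mp K) (leaf F t) l (defi F t) (ys b))
      fun l hl a b hab => T_indep hl _ fun i hi => ((hc.2 b a).mono (by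
        simpa [node] using hab) i hi).symm]
  simp only [T_top]
  have hT : ∀ l ≤ K, ∀ y, T ν (mp K) (leaf F t) l (fun y => -defi F t y) y =
      -T ν (mp K) (leaf F t) l (defi F t) y := fun l hl y => by
    simpa using T_const_mul (ν := ν) (m := mp K) (H := leaf F t) (defi F t) (-1) hl y
  have hd : drift ν (leaf F t) (fun y => -defi F t y) U ys =
      -∑ b, ∑ j ∈ range K, mp K j / ((U.node b (j + 1)).card : ℝ) *
        (T ν (mp K) (leaf F t) (j + 1) (defi F t) (ys b) -
          T ν (mp K) (leaf F t) j (defi F t) (ys b)) := by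
    simp only [drift, ← sum_neg_distrib]
    refine sum_congr rfl fun b _ => sum_congr rfl fun j hj => ?_
    have : j + 1 ≤ K := mem_range.1 hj
    rw [hT _ this, hT _ (by omega)]
    ring
  rw [hd]
  push_cast
  field_simp
  ring

theorem recursion_deriv (y0 : Fin K → X) {t : ℝ} (ht : t ∈ Set.Ioo (-1) (1 + δ)) :
    HasDerivAt (fun t => cz ν (mp K) (leaf F t) 0 y0) (-moment ν F y0 t 0) t := by
  refine ((cz_smooth isOpen_Ioo (mp_ne K) (leaf_smooth hm hδ hδ1 hF) (Nat.zero_le K)).deriv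
    t ht y0).congr_deriv ?_
  simpa [moment, EX] using
    T_const_mul (ν := ν) (m := mp K) (H := leaf F t) (defi F t) (-1) (Nat.zero_le K) y0

theorem moment_le (y0 : Fin K → X) (n : ℕ) {t : ℝ} (h0 : 0 ≤ t) (h1 : t ≤ 1) :
    |moment ν F y0 t n| * (1 - t) ^ n ≤ 1 / δ * (1 - δ) ^ n := by
  have ht : t ∈ Set.Ioo (-1) (1 + δ) := ⟨by linarith, by linarith⟩
  have hden : δ ≤ 1 - t * (1 - δ) := by nlinarith
  set a := (1 - δ) / (1 - t * (1 - δ)) with ha
  have ha0 : 0 ≤ a := div_nonneg (by linarith) (by linarith)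
  have hu : ∀ y, |defi F t y| ≤ a := fun y => by
    obtain ⟨h2, h3⟩ := hF y
    have h4 : 1 - t * (1 - δ) ≤ 1 - t * F y := by nlinarith
    rw [defi, abs_of_nonneg (div_nonneg h2 (by linarith))]
    exact div_le_div₀ (by linarith) h3 (by linarith) h4
  have hm' : |moment ν F y0 t n| ≤ a ^ (n + 1) := by
    refine EX_le ((leaf_smooth hm hδ hδ1 hF).bm ht).1 y0 n fun U _ ys => ?_
    rw [abs_prod]
    exact (prod_le_prod (fun i _ => abs_nonneg _) fun i _ => hu (ys i)).trans (by simp)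
  have h5 : a * (1 - t) ≤ 1 - δ := by
    rw [ha, div_mul_eq_mul_div, div_le_iff₀ (by linarith)]
    exact mul_le_mul_of_nonneg_left (by nlinarith) (by linarith)
  have h6 : a ≤ 1 / δ := div_le_div₀ zero_le_one (by linarith) hδ hden
  calc |moment ν F y0 t n| * (1 - t) ^ n ≤ a ^ (n + 1) * (1 - t) ^ n :=
        mul_le_mul_of_nonneg_right hm' (pow_nonneg (by linarith) n)
    _ = a * (a * (1 - t)) ^ n := by rw [mul_pow]; ring
    _ ≤ 1 / δ * (1 - δ) ^ n :=
        mul_le_mul h6 (pow_le_pow_left₀ (mul_nonneg ha0 (by linarith)) h5 n)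
          (pow_nonneg (mul_nonneg ha0 (by linarith)) n) (by positivity)

theorem remainder_deriv (y0 : Fin K → X) (N : ℕ) {t : ℝ} (ht : t ∈ Set.Ioo (-1) (1 + δ)) :
    HasDerivAt (fun t => cz ν (mp K) (leaf F t) 0 y0 -
        ∑ k ∈ range N, moment ν F y0 t k * (1 - t) ^ (k + 1) / ((k : ℝ) + 1))
      (-(moment ν F y0 t N * (1 - t) ^ N)) t := by
  induction N with
  | zero => simpa using recursion_deriv hm hδ hδ1 hF y0 ht
  | succ N ih =>
    have h1 : HasDerivAt (fun t : ℝ => (1 - t) ^ (N + 1)) (-(((N : ℝ) + 1) * (1 - t) ^ N)) t := by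
      simpa [mul_comm] using ((hasDerivAt_id t).const_sub 1).fun_pow (N + 1)
    have h := ih.sub (((moment_deriv (ν := ν) hm hδ hδ1 hF y0 N ht).mul h1).div_const ((N : ℝ) + 1))
    refine (h.congr_deriv ?_).congr_of_eventuallyEq (Filter.Eventually.of_forall fun u => ?_)
    · have : (N : ℝ) + 1 ≠ 0 := by positivity
      field_simp
      ring
    · simp only [Pi.sub_apply, Pi.mul_apply, sum_range_succ]
      ring

theorem recursion_series (y0 : Fin K → X) :
    cz ν (mp K) (leaf F 1) 0 y0 = -∑' j : ℕ, ((j : ℝ) + 1)⁻¹ *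
      ∑ U : Lvls K (j + 1), treeW K (j + 1) U *
        ∫ η, ∏ a, F (paths U η a) ∂labels ν K (j + 1) := by
  set S : ℕ → ℝ := fun j => ∑ U : Lvls K (j + 1), treeW K (j + 1) U *
    ∫ η, ∏ a, F (paths U η a) ∂labels ν K (j + 1) with hS
  have e0 : leaf F 0 = fun _ : Fin K → X => (0 : ℝ) := funext fun y => by simp [leaf]
  have hmom : ∀ k, moment ν F y0 0 k = S k := fun k => by
    have hbF : BM F := ⟨hm, 1, fun y => abs_le.2 ⟨by linarith [(hF y).1], by linarith [(hF y).2]⟩⟩
    have hb : BM fun ys : Fin (k + 1) → Fin K → X => ∏ a, F (ys a) :=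
      ⟨Finset.measurable_prod _ fun a _ => hm.comp (measurable_pi_apply a), 1, fun ys => by
        rw [abs_prod]
        exact prod_le_one (fun a _ => abs_nonneg _) fun a _ =>
          abs_le.2 ⟨by linarith [(hF (ys a)).1], by linarith [(hF (ys a)).2]⟩⟩
    have e1 : defi F 0 = F := funext fun y => by simp [defi]
    rw [moment, e0, e1, EX_zero ν y0 k fun _ => hb]
  have hpos : ∀ j : ℕ, 0 ≤ ((j : ℝ) + 1)⁻¹ * S j := fun j =>
    mul_nonneg (by positivity) (sum_nonneg fun U _ => mul_nonneg (treeW_nonneg U)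
      (integral_nonneg fun η => prod_nonneg fun a _ => (hF _).1))
  have hbound : ∀ N, |cz ν (mp K) (leaf F 1) 0 y0 + ∑ k ∈ range N, ((k : ℝ) + 1)⁻¹ * S k| ≤
      1 / δ * (1 - δ) ^ N := fun N => by
    have hI : ∀ x ∈ Set.Icc (0 : ℝ) 1, x ∈ Set.Ioo (-1) (1 + δ) := fun x hx =>
      ⟨by linarith [hx.1], by linarith [hx.2]⟩
    have h := norm_image_sub_le_of_norm_deriv_le_segment_01'
      (f := fun t => cz ν (mp K) (leaf F t) 0 y0 -
        ∑ k ∈ range N, moment ν F y0 t k * (1 - t) ^ (k + 1) / ((k : ℝ) + 1))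
      (f' := fun t => -(moment ν F y0 t N * (1 - t) ^ N)) (C := 1 / δ * (1 - δ) ^ N)
      (fun x hx => (remainder_deriv hm hδ hδ1 hF y0 N (hI x hx)).hasDerivWithinAt) fun x hx => by
        rw [norm_neg, Real.norm_eq_abs, abs_mul,
          abs_of_nonneg (pow_nonneg (by linarith [hx.2] : (0 : ℝ) ≤ 1 - x) N)]
        exact moment_le hm hδ hδ1 hF y0 N hx.1 hx.2.le
    have hz : cz ν (mp K) (leaf F 0) 0 y0 = 0 := by rw [e0, cz_zero (Nat.zero_le K)]
    simpa [hz, hmom, Real.norm_eq_abs, div_eq_inv_mul, zero_pow, Nat.succ_ne_zero] using h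
  have hlim : Tendsto (fun N => ∑ k ∈ range N, ((k : ℝ) + 1)⁻¹ * S k) atTop
      (𝓝 (-cz ν (mp K) (leaf F 1) 0 y0)) := by
    refine tendsto_iff_norm_sub_tendsto_zero.2 ?_
    refine squeeze_zero (fun N => norm_nonneg _) (fun N => ?_)
      (by simpa using (tendsto_pow_atTop_nhds_zero_of_lt_one (by linarith : 0 ≤ 1 - δ)
        (by linarith : 1 - δ < 1)).const_mul (1 / δ))
    rw [Real.norm_eq_abs, sub_neg_eq_add, add_comm]
    exact (hbound N).trans_eq (by rw [one_div])
  rw [((hasSum_iff_tendsto_nat_of_nonneg hpos _).2 hlim).tsum_eq, neg_neg]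

end Series

/-- The tree law represents the recursion. -/
theorem treeRep : TreeRep := by
  intro K X _ ν _ G hG ⟨δ, hδ, hb⟩
  obtain ⟨x⟩ := nonempty_of_isProbabilityMeasure ν
  have hδ1 : δ ≤ 1 := (hb fun _ => x).1.trans (hb fun _ => x).2
  have hl : P157.Casc.mlev K = fun l : Fin K => mp K l := funext fun l => by
    simp [P157.Casc.mlev, mp, mpar]
  have h1 : (fun y => Real.log (G y)) = leaf (fun y => 1 - G y) 1 := funext fun y => by
    simp [leaf]
  rw [hl, h1, casc_eq ν K (mp K) _ fun _ => x]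
  exact recursion_series (hG.const_sub 1) hδ hδ1
    (fun y => ⟨by linarith [(hb y).2], by linarith [(hb y).1]⟩) fun _ => x

end Vale.Agent.P168.TreeRep
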