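import Vale.Agent.P168.TreeRep.Rec
import Vale.Agent.P168.Tel.Marg

/-!
P168, tree representation: the tilted mean over trees of replicas, built by attaching one replica
at a time, and its derivative in the parameter of the leaf factor.
-/

open MeasureTheory ProbabilityTheory Filter Topology Finset

noncomputable section

namespace Vale.Agent.P168.TreeRep

open Lvls

variable {K n : ℕ} {X : Type} [MeasurableSpace X]

/-- The parameter of a level. -/
def mp (K l : ℕ) : ℝ := mpar K (l + 1)

theorem mp_ne (K l : ℕ) : mp K l ≠ 0 := by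
  unfold mp mpar; positivity

/-- The levels of one replica. -/
def one (K : ℕ) : Lvls K 1 := fun _ _ => Fin.last K

/-- Trees with labels that agree along them. -/
def Cons (U : Lvls K n) (ys : Fin n → Fin K → X) : Prop :=
  U.IsTree ∧ ∀ a b, Agree (U a b : ℕ) (ys a) (ys b)

/-- The share of one parametrised row in the law of a new replica. -/
def rowW (U : Lvls K n) (p : Fin n × Fin (K + 1)) : ℝ :=
  attach (Lvls.ext U (U.rowOf p.1 p.2)) * ((U.node p.1 p.2).card : ℝ)⁻¹

theorem rowW_nonneg {U : Lvls K n} (hU : U.IsTree) (p : Fin n × Fin (K + 1)) : 0 ≤ rowW U p :=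
  mul_nonneg (attach_pos hU _ _).le (by positivity)

/-- The law of a new replica, summed against a function constant on nodes. -/
theorem sum_rowW {U : Lvls K n} (hU : U.IsTree) {φ : Fin n → ℕ → ℝ}
    (hφ : ∀ l ≤ K, ∀ a b : Fin n, a ∈ U.node b l → φ a l = φ b l) :
    ∑ p, rowW U p * φ p.1 (p.2 : ℕ) = ((∑ b, φ b K) - ∑ b, ∑ j ∈ range K,
      mp K j / ((U.node b (j + 1)).card : ℝ) * (φ b (j + 1) - φ b j)) / n := by
  set g : ℕ → Fin n → ℝ := fun l b => mpar K l / (U.node b l).card with hg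
  have hN : ∀ l ≤ K, ∀ b, ((U.node b l).card : ℝ) ≠ 0 := fun l hl b => by
    exact_mod_cast (node_pos hU b hl).ne'
  have hl : ∀ l : Fin (K + 1), ∑ b, rowW U (b, l) * φ b l =
      ∑ b, (φ b l * (1 - g l b) - if (l : ℕ) < K then φ b l * (1 - g (l + 1) b) else 0) / n := by
    intro l
    have e2 : (if (l : ℕ) < K then ∑ b, ∑ a ∈ U.node b l, ((1 - g (l + 1) a) / n) *
        (((U.node b l).card : ℝ)⁻¹ * φ b l) else 0) =
        ∑ b, (if (l : ℕ) < K then φ b l * (1 - g (l + 1) b) else 0) / n := by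
      split_ifs with hlK
      · rw [sum_comm' (t' := univ) (s' := fun a => U.node a l) fun b a =>
          ⟨fun h => ⟨(node_symm hU).1 h.2, mem_univ _⟩, fun h => ⟨mem_univ _, (node_symm hU).2 h.1⟩⟩]
        refine sum_congr rfl fun a _ => ?_
        rw [← mul_sum, sum_congr rfl (g := fun _ => ((U.node a l).card : ℝ)⁻¹ * φ a l) fun b hb => by
          rw [node_eq hU hb, hφ l (Fin.is_le l) b a hb], sum_const, nsmul_eq_mul,
          mul_inv_cancel_left₀ (hN l (Fin.is_le l) a)]
        ring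
      · simp
    simp only [sub_div, sum_sub_distrib, ← e2]
    rw [show (∑ b, φ b l * (1 - g l b) / (n : ℝ)) = ∑ b, ((((U.node b l).card : ℝ) - mpar K l) / n) *
        (((U.node b l).card : ℝ)⁻¹ * φ b l) from sum_congr rfl fun b _ => by
      have := hN l (Fin.is_le l) b
      simp only [hg]
      field_simp]
    split_ifs with hlK
    · rw [← sum_sub_distrib]
      refine sum_congr rfl fun b _ => ?_
      rw [rowW, attach_rowOf hU, if_pos hlK, ← sum_mul, mul_assoc, sub_mul]
      refine congrArg (fun v : ℝ => _ - v * _) (sum_congr rfl fun a _ => ?_)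
      have := hN (l + 1) hlK a
      simp only [hg]
      field_simp
    · rw [sub_zero]
      refine sum_congr rfl fun b _ => ?_
      rw [rowW, attach_rowOf hU, if_neg hlK, sub_zero, mul_assoc]
  rw [Fintype.sum_prod_type_right, sum_congr rfl fun l _ => hl l, sum_comm]
  simp only [← sum_div, ← sum_sub_distrib]
  congr 1
  refine sum_congr rfl fun b _ => ?_
  rw [Fin.sum_univ_eq_sum_range
    (fun l : ℕ => φ b l * (1 - g l b) - if l < K then φ b l * (1 - g (l + 1) b) else 0),
    sum_range_succ, if_neg (lt_irrefl K), sub_zero]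
  have t := sum_range_sub (fun l => g l b * φ b l) K
  have g0 : g 0 b = 0 := by simp [hg, mpar]
  rw [g0, zero_mul, sub_zero] at t
  have e : ∑ l ∈ range K, (φ b l * (1 - g l b) -
        if l < K then φ b l * (1 - g (l + 1) b) else 0) +
      ∑ j ∈ range K, mp K j / ((U.node b (j + 1)).card : ℝ) * (φ b (j + 1) - φ b j) =
      ∑ l ∈ range K, (g (l + 1) b * φ b (l + 1) - g l b * φ b l) := by
    rw [← sum_add_distrib]
    refine sum_congr rfl fun l hl => ?_
    rw [if_pos (mem_range.1 hl)]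
    simp only [hg, mp]
    ring
  rw [t] at e
  linarith

theorem rowW_sum {U : Lvls K n} (hU : U.IsTree) (hn : 0 < n) : ∑ p, rowW U p = 1 := by
  have h := sum_rowW hU (φ := fun _ _ => 1) fun _ _ _ _ _ => rfl
  simp only [mul_one, sub_self, mul_zero, sum_const_zero, sub_zero, sum_const, card_univ,
    Fintype.card_fin, nsmul_eq_mul, mul_one] at h
  rw [h, div_self (by exact_mod_cast hn.ne')]

theorem measurable_snoc : Measurable fun p : (Fin n → Fin K → X) × (Fin K → X) =>
    (Fin.snoc p.1 p.2 : Fin (n + 1) → Fin K → X) := by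
  refine measurable_pi_lambda _ fun a => ?_
  cases a using Fin.lastCases with
  | last => simpa using measurable_snd
  | cast a => simpa using (measurable_pi_apply a).fun_comp measurable_fst

omit [MeasurableSpace X] in
theorem cons_one (y : Fin K → X) : Cons (one K) fun _ : Fin 1 => y :=
  ⟨⟨fun _ => rfl, fun _ _ => rfl, fun _ _ _ => by simp [one]⟩, fun _ _ _ _ => rfl⟩

omit [MeasurableSpace X] in
theorem cons_snoc {U : Lvls K n} {ys : Fin n → Fin K → X} (h : Cons U ys) (b : Fin n)
    (l : Fin (K + 1)) {z : Fin K → X} (hz : Agree (l : ℕ) z (ys b)) :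
    Cons (Lvls.ext U (U.rowOf b l)) (Fin.snoc ys z : Fin (n + 1) → Fin K → X) := by
  refine ⟨isTree_rowOf h.1 b l, fun a c => ?_⟩
  cases a using Fin.lastCases with
  | last => cases c using Fin.lastCases with
    | last => exact fun _ _ => rfl
    | cast c =>
      intro i hi
      simp only [ext_lc, rowOf, Fin.coe_min, lt_min_iff] at hi
      simp only [Fin.snoc_last, Fin.snoc_castSucc]
      rw [hz i hi.2, h.2 b c i hi.1]
  | cast a => cases c using Fin.lastCases with
    | last =>
      intro i hi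
      simp only [ext_cl, rowOf, Fin.coe_min, lt_min_iff] at hi
      simp only [Fin.snoc_last, Fin.snoc_castSucc]
      rw [hz i hi.2, h.2 b a i hi.1]
    | cast c => simpa using h.2 a c

variable (ν : Measure X) (H H' : (Fin K → X) → ℝ)

/-- One replica integrated out. -/
def step (f : Lvls K (n + 1) → (Fin (n + 1) → Fin K → X) → ℝ) (U : Lvls K n)
    (ys : Fin n → Fin K → X) : ℝ :=
  ∑ p : Fin n × Fin (K + 1), rowW U p * T ν (mp K) H (p.2 : ℕ)
    (fun y => f (Lvls.ext U (U.rowOf p.1 p.2)) (Fin.snoc ys y)) (ys p.1)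

/-- The mean over trees of `n + 1` replicas. -/
def EX (y0 : Fin K → X) : (n : ℕ) → (Lvls K (n + 1) → (Fin (n + 1) → Fin K → X) → ℝ) → ℝ
  | 0, f => T ν (mp K) H 0 (fun y => f (one K) fun _ => y) y0
  | n + 1, f => EX y0 n (step ν H f)

/-- The drift of the mean over trees of replicas. -/
def drift (U : Lvls K n) (ys : Fin n → Fin K → X) : ℝ :=
  ∑ b, ∑ j ∈ range K, mp K j / ((U.node b (j + 1)).card : ℝ) *
    (T ν (mp K) H (j + 1) H' (ys b) - T ν (mp K) H j H' (ys b))

variable {ν H H'}

theorem node_ext_card {U : Lvls K n} (b : Fin n) (l : Fin (K + 1)) {j : ℕ} (hj : j ≤ K)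
    (a : Fin n) :
    (((Lvls.ext U (U.rowOf b l)).node a.castSucc j).card : ℝ) =
        (U.node a j).card + (if a ∈ U.node b j ∧ j ≤ (l : ℕ) then 1 else 0) ∧
      (((Lvls.ext U (U.rowOf b l)).node (Fin.last n) j).card : ℝ) =
        (if j ≤ (l : ℕ) then ((U.node b j).card : ℝ) else 0) + 1 := by
  simp only [node, Finset.card_filter, Fin.sum_univ_castSucc, Nat.cast_add, Nat.cast_sum]
  simp only [ext_cc, ext_cl, ext_lc, ext_ll, rowOf, Fin.coe_min, le_min_iff, Fin.val_last, hj,
    if_true, Nat.cast_one, Nat.cast_ite, Nat.cast_zero, mem_filter, mem_univ, true_and]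
  by_cases h : j ≤ (l : ℕ) <;> simp [h]

theorem drift_snoc {U : Lvls K n} {ys : Fin n → Fin K → X} (h : Cons U ys) (b : Fin n)
    (l : Fin (K + 1)) {z : Fin K → X} (hz : Agree (l : ℕ) z (ys b)) :
    drift ν H H' (Lvls.ext U (U.rowOf b l)) (Fin.snoc ys z : Fin (n + 1) → Fin K → X) =
      drift ν H H' U ys + score ν (mp K) H H' l z := by
  unfold drift score
  rw [sum_comm, sum_comm (s := (univ : Finset (Fin n))),
    show Finset.Ico (l : ℕ) K = (range K).filter (fun j => (l : ℕ) ≤ j) by ext j; simp [and_comm],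
    sum_filter, ← sum_add_distrib]
  refine sum_congr rfl fun j hj => ?_
  have hjK : j + 1 ≤ K := mem_range.1 hj
  set d : (Fin K → X) → ℝ := fun y => T ν (mp K) H (j + 1) H' y - T ν (mp K) H j H' y with hd
  have hdi : ∀ y y', Agree (j + 1) y y' → d y = d y' := fun y y' hy => by
    simp only [hd, T_indep hjK H' hy, T_indep (by omega : j ≤ K) H' (hy.mono (Nat.le_succ j))]
  rw [Fin.sum_univ_castSucc]
  simp only [Fin.snoc_castSucc, Fin.snoc_last, (node_ext_card b l hjK _).1,
    (node_ext_card b l hjK b).2]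
  change (∑ a, mp K j / _ * d (ys a)) + mp K j / _ * d z =
    (∑ a, mp K j / _ * d (ys a)) + if (l : ℕ) ≤ j then mp K j * d z else 0
  by_cases hl : (l : ℕ) ≤ j
  · simp [hl, show ¬ (j + 1 ≤ (l : ℕ)) by omega]
  · have hl' : j + 1 ≤ (l : ℕ) := by omega
    simp only [hl', and_true, if_true, if_neg hl, add_zero]
    have hz' : d z = d (ys b) := hdi _ _ (hz.mono hl')
    have hN : ((U.node b (j + 1)).card : ℝ) ≠ 0 := by exact_mod_cast (node_pos h.1 b hjK).ne'
    have hin : ∀ a ∈ U.node b (j + 1), d (ys a) = d (ys b) ∧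
        (U.node a (j + 1)).card = (U.node b (j + 1)).card := fun a ha =>
      ⟨hdi _ _ ((h.2 a b).mono (by
        simpa [node, h.1.2.1 a b] using ha)), by rw [node_eq h.1 ha]⟩
    set N : ℝ := ((U.node b (j + 1)).card : ℝ) with hNdef
    rw [hz', ← sum_add_sum_compl (U.node b (j + 1)), ← sum_add_sum_compl (U.node b (j + 1))
        (fun a => mp K j / ((U.node a (j + 1)).card : ℝ) * d (ys a)), add_right_comm]
    refine congrArg₂ (· + ·) ?_ (sum_congr rfl fun a ha => by
      rw [if_neg (mem_compl.1 ha), add_zero])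
    rw [sum_congr rfl (g := fun _ => mp K j / (N + 1) * d (ys b)) fun a ha => by
        rw [if_pos ha, (hin a ha).1, (hin a ha).2],
      sum_congr (f := fun a => mp K j / ((U.node a (j + 1)).card : ℝ) * d (ys a)) rfl
        (g := fun _ => mp K j / N * d (ys b)) fun a ha => by
        rw [(hin a ha).1, (hin a ha).2]]
    have hN1 : N + 1 ≠ 0 := by positivity
    simp only [sum_const, nsmul_eq_mul, ← hNdef]
    field_simp

theorem EX_congr (y0 : Fin K → X) : ∀ (n : ℕ)
    {f g : Lvls K (n + 1) → (Fin (n + 1) → Fin K → X) → ℝ},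
    (∀ U ys, Cons U ys → f U ys = g U ys) → EX ν H y0 n f = EX ν H y0 n g
  | 0, f, g, h => T_congr (Nat.zero_le K) fun z _ => h _ _ (cons_one z)
  | n + 1, f, g, h => EX_congr y0 n fun U ys hc => sum_congr rfl fun p _ => by
      rw [T_congr (Fin.is_le p.2) fun z hz => h _ _ (cons_snoc hc p.1 p.2 hz)]

theorem EX_const_mul [IsProbabilityMeasure ν] (y0 : Fin K → X) (c : ℝ) : ∀ (n : ℕ)
    (f : Lvls K (n + 1) → (Fin (n + 1) → Fin K → X) → ℝ),
    EX ν H y0 n (fun U ys => c * f U ys) = c * EX ν H y0 n f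
  | 0, f => T_const_mul _ c (Nat.zero_le K) y0
  | n + 1, f => by
    simp only [EX]
    rw [← EX_const_mul y0 c n (step ν H f)]
    congr 1
    funext U ys
    simp only [step, mul_sum, T_const_mul _ c (Fin.is_le _), mul_left_comm]

theorem EX_le [IsProbabilityMeasure ν] (hH : BM H) (y0 : Fin K → X) {B : ℝ} : ∀ (n : ℕ)
    {f : Lvls K (n + 1) → (Fin (n + 1) → Fin K → X) → ℝ},
    (∀ U, U.IsTree → ∀ ys, |f U ys| ≤ B) → |EX ν H y0 n f| ≤ B
  | 0, f, h => T_le hH (mp_ne K) (fun z => h _ (cons_one z).1 _) (Nat.zero_le K) y0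
  | n + 1, f, h => EX_le hH y0 n fun U hU ys => by
    refine (abs_sum_le_sum_abs _ _).trans ?_
    calc ∑ p : Fin (n + 1) × Fin (K + 1), |rowW U p * T ν (mp K) H (p.2 : ℕ)
          (fun y => f (Lvls.ext U (U.rowOf p.1 p.2)) (Fin.snoc ys y)) (ys p.1)|
        ≤ ∑ p, rowW U p * B := sum_le_sum fun p _ => by
          rw [abs_mul, abs_of_nonneg (rowW_nonneg hU p)]
          exact mul_le_mul_of_nonneg_left (T_le hH (mp_ne K)
            (fun z => h _ (isTree_rowOf hU _ _) _) (Fin.is_le _) _) (rowW_nonneg hU p)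
      _ = B := by rw [← sum_mul, rowW_sum hU (Nat.succ_pos n), one_mul]

theorem EX_deriv [IsProbabilityMeasure ν] {s : Set ℝ} (hs : IsOpen s)
    {Hf Hf' : ℝ → (Fin K → X) → ℝ} (hH : Smooth s Hf Hf') (y0 : Fin K → X) : ∀ (n : ℕ)
    {f f' : ℝ → Lvls K (n + 1) → (Fin (n + 1) → Fin K → X) → ℝ},
    (∀ U, Smooth s (fun t => f t U) fun t => f' t U) → ∀ t ∈ s,
      HasDerivAt (fun t => EX ν (Hf t) y0 n (f t))
        (EX ν (Hf t) y0 n fun U ys => f' t U ys + f t U ys * drift ν (Hf t) (Hf' t) U ys) t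
  | 0, f, f', hf, t, ht => by
    have h := (T_smooth (ν := ν) hs (mp_ne K) hH (β := Unit)
      (g := fun t _ y => f t (one K) fun _ => y) (g' := fun t _ y => f' t (one K) fun _ => y)
      ((hf (one K)).comp (φ := fun p : Unit × (Fin K → X) => fun _ : Fin 1 => p.2)
        (measurable_pi_lambda _ fun _ => measurable_snd)) (Nat.zero_le K)).deriv t ht ((), y0)
    refine h.congr_deriv ?_
    refine T_congr (Nat.zero_le K) fun z _ => ?_
    congr 2
    simp only [drift, score, Nat.Ico_zero_eq_range]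
    rw [sum_comm]
    refine sum_congr rfl fun j hj => ?_
    have : j + 1 ≤ K := mem_range.1 hj
    simp [node, one, Fin.val_last, this]
  | n + 1, f, f', hf, t, ht => by
    have hst : ∀ U : Lvls K (n + 1), Smooth s (fun t => step ν (Hf t) (f t) U) fun t ys =>
        ∑ p : Fin (n + 1) × Fin (K + 1), rowW U p * T ν (mp K) (Hf t) (p.2 : ℕ)
          (fun y => f' t (Lvls.ext U (U.rowOf p.1 p.2)) (Fin.snoc ys y) +
            f t (Lvls.ext U (U.rowOf p.1 p.2)) (Fin.snoc ys y) *
              score ν (mp K) (Hf t) (Hf' t) p.2 y) (ys p.1) := fun U =>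
      Smooth.sum _ fun p _ => ((T_smooth (ν := ν) hs (mp_ne K) hH
        (g := fun t ys y => f t (Lvls.ext U (U.rowOf p.1 p.2)) (Fin.snoc ys y))
        (g' := fun t ys y => f' t (Lvls.ext U (U.rowOf p.1 p.2)) (Fin.snoc ys y))
        ((hf _).comp measurable_snoc) (Fin.is_le p.2)).comp
        (φ := fun ys : Fin (n + 1) → Fin K → X => (ys, ys p.1)) (by fun_prop)).const_mul _
    refine (EX_deriv hs hH y0 n hst t ht).congr_deriv ?_
    refine EX_congr y0 n fun U ys hc => ?_
    simp only [step, sum_mul, ← sum_add_distrib]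
    refine sum_congr rfl fun p _ => ?_
    rw [mul_assoc, ← mul_add]
    congr 1
    have hb : ∀ {g : (Fin (n + 1 + 1) → Fin K → X) → ℝ}, BM g →
        BM fun y => g (Fin.snoc ys y) := fun hg =>
      hg.comp (measurable_snoc.comp measurable_prodMk_left)
    have h1 := hb ((hf (Lvls.ext U (U.rowOf p.1 p.2))).bm ht).1
    have h2 := hb ((hf (Lvls.ext U (U.rowOf p.1 p.2))).bm ht).2
    rw [mul_comm _ (drift ν (Hf t) (Hf' t) U ys), ← T_const_mul _ _ (Fin.is_le p.2),
      ← T_add (hH.bm ht).1 (h2.add (h1.mul (score_bm hs (mp_ne K) hH ht _))) (h1.const_mul _)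
        (Fin.is_le p.2)]
    refine T_congr (Fin.is_le p.2) fun z hz => ?_
    rw [drift_snoc hc p.1 p.2 hz]
    ring

end Vale.Agent.P168.TreeRep
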