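import Mathlib

/-!
P168, tree representation: bounded families with bounded derivatives in a parameter.
-/

open MeasureTheory ProbabilityTheory Filter Topology

noncomputable section

namespace Vale.Agent.P168.TreeRep

variable {α β : Type*} [MeasurableSpace α] [MeasurableSpace β]

/-- A measurable bounded family with a measurable bounded derivative. -/
structure Smooth (s : Set ℝ) (g g' : ℝ → α → ℝ) : Prop where
  meas : ∀ t, t ∈ s → Measurable (g t)
  meas' : ∀ t, t ∈ s → Measurable (g' t)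
  bound : ∃ B, ∀ t ∈ s, ∀ a, |g t a| ≤ B ∧ |g' t a| ≤ B
  deriv : ∀ t ∈ s, ∀ a, HasDerivAt (fun u => g u a) (g' t a) t

variable {s : Set ℝ} {g g' h h' : ℝ → α → ℝ}

theorem Smooth.const {c : α → ℝ} (hm : Measurable c) {B : ℝ} (hB : ∀ a, |c a| ≤ B) :
    Smooth s (fun _ => c) (fun _ _ => 0) := by
  exact ⟨fun _ _ => hm, fun _ _ => measurable_const,
    ⟨B, fun t _ a => ⟨hB a, by simpa using (abs_nonneg _).trans (hB a)⟩⟩,
    fun t _ a => hasDerivAt_const t (c a)⟩

theorem Smooth.comp (hg : Smooth s g g') {φ : β → α} (hφ : Measurable φ) :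
    Smooth s (fun t b => g t (φ b)) fun t b => g' t (φ b) := by
  obtain ⟨B, hB⟩ := hg.bound
  exact ⟨fun t ht => (hg.meas t ht).comp hφ, fun t ht => (hg.meas' t ht).comp hφ,
    ⟨B, fun t ht b => hB t ht (φ b)⟩, fun t ht b => hg.deriv t ht (φ b)⟩

theorem Smooth.congr (hg : Smooth s g g') {f f' : ℝ → α → ℝ} (e : ∀ t a, f t a = g t a)
    (e' : ∀ t ∈ s, ∀ a, f' t a = g' t a) : Smooth s f f' := by
  have ef : f = g := funext fun t => funext (e t)
  subst ef
  obtain ⟨B, hB⟩ := hg.bound
  refine ⟨hg.meas, fun t ht => ?_, ⟨B, fun t ht a => ?_⟩, fun t ht a => ?_⟩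
  · rw [show f' t = g' t from funext (e' t ht)]; exact hg.meas' t ht
  · rw [e' t ht a]; exact hB t ht a
  · rw [e' t ht a]; exact hg.deriv t ht a

theorem Smooth.add (hg : Smooth s g g') (hh : Smooth s h h') :
    Smooth s (fun t a => g t a + h t a) fun t a => g' t a + h' t a := by
  obtain ⟨B, hB⟩ := hg.bound
  obtain ⟨C, hC⟩ := hh.bound
  exact ⟨fun t ht => (hg.meas t ht).add (hh.meas t ht),
    fun t ht => (hg.meas' t ht).add (hh.meas' t ht), ⟨B + C, fun t ht a =>
      ⟨(abs_add_le _ _).trans (add_le_add (hB t ht a).1 (hC t ht a).1),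
        (abs_add_le _ _).trans (add_le_add (hB t ht a).2 (hC t ht a).2)⟩⟩,
    fun t ht a => (hg.deriv t ht a).add (hh.deriv t ht a)⟩

theorem Smooth.const_mul (hg : Smooth s g g') (c : ℝ) :
    Smooth s (fun t a => c * g t a) fun t a => c * g' t a := by
  obtain ⟨B, hB⟩ := hg.bound
  refine ⟨fun t ht => (hg.meas t ht).const_mul c, fun t ht => (hg.meas' t ht).const_mul c,
    ⟨|c| * B, fun t ht a => ⟨?_, ?_⟩⟩, fun t ht a => (hg.deriv t ht a).const_mul c⟩
  · rw [abs_mul]; exact mul_le_mul_of_nonneg_left (hB t ht a).1 (abs_nonneg c)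
  · rw [abs_mul]; exact mul_le_mul_of_nonneg_left (hB t ht a).2 (abs_nonneg c)

theorem Smooth.sub (hg : Smooth s g g') (hh : Smooth s h h') :
    Smooth s (fun t a => g t a - h t a) fun t a => g' t a - h' t a :=
  (hg.add (hh.const_mul (-1))).congr (fun t a => by ring) fun t _ a => by ring

theorem Smooth.mul (hg : Smooth s g g') (hh : Smooth s h h') :
    Smooth s (fun t a => g t a * h t a) fun t a => g' t a * h t a + g t a * h' t a := by
  obtain ⟨B, hB⟩ := hg.bound
  obtain ⟨C, hC⟩ := hh.bound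
  refine ⟨fun t ht => (hg.meas t ht).mul (hh.meas t ht), fun t ht =>
    ((hg.meas' t ht).mul (hh.meas t ht)).add ((hg.meas t ht).mul (hh.meas' t ht)),
    ⟨2 * (|B| * |C|), fun t ht a => ?_⟩, fun t ht a => (hg.deriv t ht a).mul (hh.deriv t ht a)⟩
  obtain ⟨h1, h2⟩ := hB t ht a
  obtain ⟨h3, h4⟩ := hC t ht a
  have b1 := h1.trans (le_abs_self B)
  have b2 := h2.trans (le_abs_self B)
  have b3 := h3.trans (le_abs_self C)
  have b4 := h4.trans (le_abs_self C)
  have p : 0 ≤ |B| * |C| := by positivity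
  constructor
  · rw [abs_mul]
    have := mul_le_mul b1 b3 (abs_nonneg _) (abs_nonneg B)
    linarith
  · refine (abs_add_le _ _).trans ?_
    rw [abs_mul, abs_mul]
    have := mul_le_mul b2 b3 (abs_nonneg _) (abs_nonneg B)
    have := mul_le_mul b1 b4 (abs_nonneg _) (abs_nonneg B)
    linarith

theorem Smooth.sum {ι : Type*} (S : Finset ι) {f f' : ι → ℝ → α → ℝ}
    (hf : ∀ i ∈ S, Smooth s (f i) (f' i)) :
    Smooth s (fun t a => ∑ i ∈ S, f i t a) fun t a => ∑ i ∈ S, f' i t a := by
  classical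
  induction S using Finset.induction_on with
  | empty =>
    exact (Smooth.const (s := s) (c := fun _ : α => (0 : ℝ)) measurable_const (B := 0)
      fun _ => by simp).congr (fun t a => by simp) fun t _ a => by simp
  | insert i S hi ih =>
    exact ((hf i (Finset.mem_insert_self i S)).add
      (ih fun j hj => hf j (Finset.mem_insert_of_mem hj))).congr
      (fun t a => Finset.sum_insert hi) fun t _ a => Finset.sum_insert hi

theorem Smooth.exp (hg : Smooth s g g') :
    Smooth s (fun t a => Real.exp (g t a)) fun t a => Real.exp (g t a) * g' t a := by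
  obtain ⟨B, hB⟩ := hg.bound
  refine ⟨fun t ht => Real.measurable_exp.comp (hg.meas t ht), fun t ht =>
    (Real.measurable_exp.comp (hg.meas t ht)).mul (hg.meas' t ht),
    ⟨Real.exp B * (|B| + 1), fun t ht a => ?_⟩, fun t ht a => (hg.deriv t ht a).exp⟩
  obtain ⟨h1, h2⟩ := hB t ht a
  have he : Real.exp (g t a) ≤ Real.exp B := Real.exp_le_exp.2 ((le_abs_self _).trans h1)
  have := abs_nonneg B
  constructor
  · rw [abs_of_pos (Real.exp_pos _)]
    have : 0 ≤ Real.exp B * |B| := by positivity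
    linarith
  · rw [abs_mul, abs_of_pos (Real.exp_pos _)]
    exact mul_le_mul he (h2.trans ((le_abs_self B).trans (le_add_of_nonneg_right zero_le_one)))
      (abs_nonneg _) (Real.exp_pos B).le

theorem Smooth.log (hg : Smooth s g g') {c : ℝ} (hc : 0 < c) (hlo : ∀ t ∈ s, ∀ a, c ≤ g t a) :
    Smooth s (fun t a => Real.log (g t a)) fun t a => g' t a / g t a := by
  obtain ⟨B, hB⟩ := hg.bound
  refine ⟨fun t ht => Real.measurable_log.comp (hg.meas t ht), fun t ht =>
    (hg.meas' t ht).div (hg.meas t ht),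
    ⟨|Real.log c| + |Real.log B| + |B| / c, fun t ht a => ?_⟩,
    fun t ht a => (hg.deriv t ht a).log (hc.trans_le (hlo t ht a)).ne'⟩
  obtain ⟨h1, h2⟩ := hB t ht a
  have hl := hlo t ht a
  have h0 : 0 < g t a := hc.trans_le hl
  have l1 : Real.log c ≤ Real.log (g t a) := Real.log_le_log hc hl
  have l2 : Real.log (g t a) ≤ Real.log B := Real.log_le_log h0 ((le_abs_self _).trans h1)
  have := neg_abs_le (Real.log c)
  have := le_abs_self (Real.log B)
  have := abs_nonneg (Real.log c)
  have := abs_nonneg (Real.log B)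
  have hq : 0 ≤ |B| / c := by positivity
  refine ⟨abs_le.2 ⟨by linarith, by linarith⟩, ?_⟩
  rw [abs_div, abs_of_pos h0]
  exact (div_le_div₀ (abs_nonneg B) (h2.trans (le_abs_self B)) hc hl).trans (by linarith)

theorem Smooth.integral {g g' : ℝ → α × β → ℝ} (hs : IsOpen s) (hg : Smooth s g g') (μ : Measure β)
    [IsProbabilityMeasure μ] :
    Smooth s (fun t a => ∫ b, g t (a, b) ∂μ) fun t a => ∫ b, g' t (a, b) ∂μ := by
  obtain ⟨B, hB⟩ := hg.bound
  have hm : ∀ {f : α × β → ℝ}, Measurable f → Measurable fun a => ∫ b, f (a, b) ∂μ := fun hf =>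
    (hf.stronglyMeasurable.integral_prod_right' (ν := μ)).measurable
  have habs : ∀ (f : β → ℝ), (∀ b, |f b| ≤ B) → |∫ b, f b ∂μ| ≤ B := fun f hf =>
    (norm_integral_le_of_norm_le_const (C := B) (f := f) (ae_of_all _ hf)).trans (by simp)
  refine ⟨fun t ht => hm (hg.meas t ht), fun t ht => hm (hg.meas' t ht),
    ⟨B, fun t ht a => ⟨habs _ fun b => (hB t ht (a, b)).1, habs _ fun b => (hB t ht (a, b)).2⟩⟩,
    fun t ht a => ?_⟩
  refine (hasDerivAt_integral_of_dominated_loc_of_deriv_le (s := s) (hs.mem_nhds ht)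
    (F := fun u b => g u (a, b)) (F' := fun u b => g' u (a, b)) (bound := fun _ => B)
    ?_ ?_ ?_ (ae_of_all _ fun b u hu => (hB u hu (a, b)).2) (integrable_const B)
    (ae_of_all _ fun b u hu => hg.deriv u hu (a, b))).2
  · exact eventually_of_mem (hs.mem_nhds ht) fun u hu =>
      ((hg.meas u hu).comp measurable_prodMk_left).aestronglyMeasurable
  · exact Integrable.of_bound ((hg.meas t ht).comp measurable_prodMk_left).aestronglyMeasurable B
      (ae_of_all _ fun b => (hB t ht (a, b)).1)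
  · exact ((hg.meas' t ht).comp measurable_prodMk_left).aestronglyMeasurable

end Vale.Agent.P168.TreeRep
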