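import Vale.Agent.P168.Tree
import Vale.Agent.P168.TreeRep.Smooth

/-!
P168, tree representation: the recursion of exponential means over the levels, its tilted
conditional means, and their derivatives in a parameter of the leaf factor.
-/

open MeasureTheory ProbabilityTheory Filter Topology

noncomputable section

namespace Vale.Agent.P168.TreeRep

/-- Bounded measurable functions. -/
def BM {α : Type*} [MeasurableSpace α] (g : α → ℝ) : Prop :=
  Measurable g ∧ ∃ B, ∀ a, |g a| ≤ B

namespace BM

variable {α β : Type*} [MeasurableSpace α] [MeasurableSpace β] {g h : α → ℝ}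

theorem const (c : ℝ) : BM (fun _ : α => c) := ⟨measurable_const, |c|, fun _ => le_rfl⟩

theorem comp (hg : BM g) {φ : β → α} (hφ : Measurable φ) : BM fun b => g (φ b) :=
  ⟨hg.1.comp hφ, let ⟨B, hB⟩ := hg.2; ⟨B, fun _ => hB _⟩⟩

theorem add (hg : BM g) (hh : BM h) : BM fun a => g a + h a :=
  ⟨hg.1.add hh.1, let ⟨B, hB⟩ := hg.2; let ⟨C, hC⟩ := hh.2;
    ⟨B + C, fun a => (abs_add_le _ _).trans (add_le_add (hB a) (hC a))⟩⟩

theorem mul (hg : BM g) (hh : BM h) : BM fun a => g a * h a := by
  obtain ⟨B, hB⟩ := hg.2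
  obtain ⟨C, hC⟩ := hh.2
  refine ⟨hg.1.mul hh.1, |B| * |C|, fun a => ?_⟩
  rw [abs_mul]
  exact mul_le_mul ((hB a).trans (le_abs_self B)) ((hC a).trans (le_abs_self C)) (abs_nonneg _)
    (abs_nonneg B)

theorem const_mul (hg : BM g) (c : ℝ) : BM fun a => c * g a := (const c).mul hg

theorem sub (hg : BM g) (hh : BM h) : BM fun a => g a - h a := by
  simpa [sub_eq_add_neg] using hg.add (hh.const_mul (-1))

theorem sum {ι : Type*} (S : Finset ι) {f : ι → α → ℝ} (hf : ∀ i ∈ S, BM (f i)) :
    BM fun a => ∑ i ∈ S, f i a := by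
  classical
  induction S using Finset.induction_on with
  | empty => simpa using const (α := α) 0
  | insert i S hi ih =>
    simpa [Finset.sum_insert hi] using
      (hf i (Finset.mem_insert_self i S)).add (ih fun j hj => hf j (Finset.mem_insert_of_mem hj))

theorem exp (hg : BM g) : BM fun a => Real.exp (g a) :=
  ⟨Real.measurable_exp.comp hg.1, let ⟨B, hB⟩ := hg.2; ⟨Real.exp B, fun a => by
    rw [abs_of_pos (Real.exp_pos _)]; exact Real.exp_le_exp.2 ((le_abs_self _).trans (hB a))⟩⟩

theorem log (hg : BM g) {c : ℝ} (hc : 0 < c) (hlo : ∀ a, c ≤ g a) :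
    BM fun a => Real.log (g a) := by
  obtain ⟨B, hB⟩ := hg.2
  refine ⟨Real.measurable_log.comp hg.1, |Real.log c| + |Real.log B|, fun a => ?_⟩
  have l1 : Real.log c ≤ Real.log (g a) := Real.log_le_log hc (hlo a)
  have l2 : Real.log (g a) ≤ Real.log B :=
    Real.log_le_log (hc.trans_le (hlo a)) ((le_abs_self _).trans (hB a))
  have := neg_abs_le (Real.log c)
  have := le_abs_self (Real.log B)
  have := abs_nonneg (Real.log c)
  have := abs_nonneg (Real.log B)
  exact abs_le.2 ⟨by linarith, by linarith⟩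

theorem integrable (hg : BM g) (μ : Measure α) [IsFiniteMeasure μ] : Integrable g μ :=
  let ⟨B, hB⟩ := hg.2
  Integrable.of_bound hg.1.aestronglyMeasurable B (ae_of_all _ hB)

theorem integral {g : α × β → ℝ} (hg : BM g) (μ : Measure β) [IsProbabilityMeasure μ] :
    BM fun a => ∫ b, g (a, b) ∂μ := by
  refine ⟨(hg.1.stronglyMeasurable.integral_prod_right' (ν := μ)).measurable, ?_⟩
  obtain ⟨B, hB⟩ := hg.2
  exact ⟨B, fun a => (norm_integral_le_of_norm_le_const (C := B) (μ := μ) (f := fun b => g (a, b))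
    (ae_of_all _ fun b => hB (a, b))).trans (by simp)⟩

end BM

theorem Smooth.bm {α : Type*} [MeasurableSpace α] {s : Set ℝ} {g g' : ℝ → α → ℝ}
    (h : Smooth s g g') {t : ℝ} (ht : t ∈ s) : BM (g t) ∧ BM (g' t) :=
  let ⟨B, hB⟩ := h.bound
  ⟨⟨h.meas t ht, B, fun a => (hB t ht a).1⟩, ⟨h.meas' t ht, B, fun a => (hB t ht a).2⟩⟩

variable {K : ℕ} {X : Type} [MeasurableSpace X]

/-- Replace the label at level `l`. -/
def upd (y : Fin K → X) (l : ℕ) (x : X) : Fin K → X := fun i => if (i : ℕ) = l then x else y i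

/-- The same labels below level `l`. -/
def Agree (l : ℕ) (y y' : Fin K → X) : Prop := ∀ i : Fin K, (i : ℕ) < l → y i = y' i

/-- Labels of `y` below level `l` and of `z` above. -/
def glue (l : ℕ) (y z : Fin K → X) : Fin K → X := fun i => if (i : ℕ) < l then y i else z i

theorem measurable_upd (l : ℕ) : Measurable fun p : (Fin K → X) × X => upd p.1 l p.2 := by
  refine measurable_pi_lambda _ fun i => ?_
  unfold upd
  split_ifs
  · exact measurable_snd
  · exact (measurable_pi_apply i).comp measurable_fst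

omit [MeasurableSpace X] in
theorem Agree.eq {y y' : Fin K → X} (h : Agree K y y') : y = y' := funext fun i => h i i.isLt

omit [MeasurableSpace X] in
theorem Agree.mono {l l' : ℕ} {y y' : Fin K → X} (h : Agree l y y') (hl : l' ≤ l) :
    Agree l' y y' := fun i hi => h i (hi.trans_le hl)

omit [MeasurableSpace X] in
theorem agree_upd {l : ℕ} (y : Fin K → X) (x : X) : Agree l (upd y l x) y := fun i hi => by
  simp [upd, hi.ne]

omit [MeasurableSpace X] in
theorem Agree.upd {l : ℕ} {y y' : Fin K → X} (h : Agree l y y') (x : X) :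
    Agree (l + 1) (upd y l x) (TreeRep.upd y' l x) := fun i hi => by
  unfold TreeRep.upd
  split_ifs with e
  · rfl
  · exact h i (by omega)

variable (ν : Measure X) (m : ℕ → ℝ) (H : (Fin K → X) → ℝ)

/-- The recursion from the leaves, by the number of levels integrated out. -/
def czd : ℕ → (Fin K → X) → ℝ
  | 0 => H
  | d + 1 => fun y => (m (K - (d + 1)))⁻¹ *
      Real.log (∫ x, Real.exp (m (K - (d + 1)) * czd d (upd y (K - (d + 1)) x)) ∂ν)

/-- The recursion given the labels below level `l`. -/
def cz (l : ℕ) : (Fin K → X) → ℝ := czd ν m H (K - l)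

theorem cz_top : cz ν m H K = H := by simp [cz, czd]

theorem cz_step {l : ℕ} (hl : l < K) (y : Fin K → X) :
    cz ν m H l y = (m l)⁻¹ *
      Real.log (∫ x, Real.exp (m l * cz ν m H (l + 1) (upd y l x)) ∂ν) := by
  unfold cz
  obtain ⟨d, hd⟩ : ∃ d, K - l = d + 1 := ⟨K - l - 1, by omega⟩
  rw [hd, show K - (l + 1) = d by omega, czd, show K - (d + 1) = l by omega]

/-- The tilt of one level. -/
def tilt (l : ℕ) (y : Fin K → X) (x : X) : ℝ :=
  Real.exp (m l * (cz ν m H (l + 1) (upd y l x) - cz ν m H l y))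

/-- Tilted means, by the number of levels integrated out. -/
def Td : ℕ → ((Fin K → X) → ℝ) → (Fin K → X) → ℝ
  | 0 => fun g => g
  | d + 1 => fun g y => ∫ x, tilt ν m H (K - (d + 1)) y x *
      Td d g (upd y (K - (d + 1)) x) ∂ν

/-- The tilted mean given the labels below level `l`. -/
def T (l : ℕ) : ((Fin K → X) → ℝ) → (Fin K → X) → ℝ := Td ν m H (K - l)

theorem T_top (g : (Fin K → X) → ℝ) : T ν m H K g = g := by simp [T, Td]

theorem T_step {l : ℕ} (hl : l < K) (g : (Fin K → X) → ℝ) (y : Fin K → X) :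
    T ν m H l g y = ∫ x, tilt ν m H l y x * T ν m H (l + 1) g (upd y l x) ∂ν := by
  unfold T
  obtain ⟨d, hd⟩ : ∃ d, K - l = d + 1 := ⟨K - l - 1, by omega⟩
  rw [hd, show K - (l + 1) = d by omega, Td, show K - (d + 1) = l by omega]

/-- Increments of the tilted means above level `l`. -/
def score (g : (Fin K → X) → ℝ) (l : ℕ) (y : Fin K → X) : ℝ :=
  ∑ j ∈ Finset.Ico l K, m j * (T ν m H (j + 1) g y - T ν m H j g y)

variable {ν m H}

theorem cz_congr {l : ℕ} (hl : l ≤ K) {y y' : Fin K → X} (h : Agree l y y') :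
    cz ν m H l y = cz ν m H l y' := by
  induction hl using Nat.decreasingInduction generalizing y y' with
  | self => rw [h.eq]
  | of_succ l hl ih =>
    simp only [cz_step ν m H hl, fun x => ih (h.upd x)]

theorem T_indep {l : ℕ} (hl : l ≤ K) (g : (Fin K → X) → ℝ) {y y' : Fin K → X}
    (h : Agree l y y') : T ν m H l g y = T ν m H l g y' := by
  induction hl using Nat.decreasingInduction generalizing y y' with
  | self => rw [h.eq]
  | of_succ l hl ih =>
    simp only [T_step ν m H hl, tilt, fun x => ih (h.upd x),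
      fun x => cz_congr (ν := ν) (m := m) (H := H) (Nat.succ_le_of_lt hl) (h.upd x),
      cz_congr (ν := ν) (m := m) (H := H) hl.le h]

theorem T_congr {l : ℕ} (hl : l ≤ K) {g g' : (Fin K → X) → ℝ} {y : Fin K → X}
    (h : ∀ z, Agree l z y → g z = g' z) : T ν m H l g y = T ν m H l g' y := by
  induction hl using Nat.decreasingInduction generalizing y with
  | self => rw [T_top, T_top]; exact h y fun _ _ => rfl
  | of_succ l hl ih =>
    simp only [T_step ν m H hl]
    refine integral_congr_ae (ae_of_all _ fun x => ?_)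
    simp only
    rw [ih (y := upd y l x) fun z hz => h z fun i hi =>
      (hz i (hi.trans (Nat.lt_succ_self l))).trans (agree_upd y x i hi)]

theorem cz_zero [IsProbabilityMeasure ν] {l : ℕ} (hl : l ≤ K) (y : Fin K → X) :
    cz ν m (fun _ => 0) l y = 0 := by
  induction hl using Nat.decreasingInduction generalizing y with
  | self => rw [cz_top]
  | of_succ l hl ih => simp [cz_step ν m _ hl, ih]

variable [IsProbabilityMeasure ν]

theorem cz_bm (hH : BM H) {l : ℕ} (hl : l ≤ K) : BM (cz ν m H l) := by
  induction hl using Nat.decreasingInduction with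
  | self => rwa [cz_top]
  | of_succ l hl ih =>
    rw [show cz ν m H l = fun y => (m l)⁻¹ *
      Real.log (∫ x, Real.exp (m l * cz ν m H (l + 1) (upd y l x)) ∂ν) from
      funext (cz_step ν m H hl)]
    have h1 : BM fun p : (Fin K → X) × X => Real.exp (m l * cz ν m H (l + 1) (upd p.1 l p.2)) :=
      ((ih.comp (measurable_upd l)).const_mul (m l)).exp
    obtain ⟨B, hB⟩ := ((ih.comp (measurable_upd l)).const_mul (m l)).2
    refine ((h1.integral ν).log (Real.exp_pos (-B)) fun y => ?_).const_mul _
    refine le_trans (le_of_eq (by simp)) (integral_mono_ae (integrable_const (Real.exp (-B)))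
      (((h1.comp measurable_prodMk_left).integrable ν)) (ae_of_all _ fun x => ?_))
    exact Real.exp_le_exp.2 (abs_le.1 (hB (y, x))).1

theorem tilt_bm (hH : BM H) {l : ℕ} (hl : l < K) :
    BM fun p : (Fin K → X) × X => tilt ν m H l p.1 p.2 :=
  ((((cz_bm hH hl).comp (measurable_upd l)).sub
    ((cz_bm hH hl.le).comp measurable_fst)).const_mul (m l)).exp

theorem tilt_integral (hH : BM H) {l : ℕ} (hl : l < K) (hm : m l ≠ 0) (y : Fin K → X) :
    ∫ x, tilt ν m H l y x ∂ν = 1 := by
  have hb : BM fun x => Real.exp (m l * cz ν m H (l + 1) (upd y l x)) :=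
    (((cz_bm hH hl).comp ((measurable_upd l).comp measurable_prodMk_left)).const_mul (m l)).exp
  have hp : 0 < ∫ x, Real.exp (m l * cz ν m H (l + 1) (upd y l x)) ∂ν :=
    integral_exp_pos (hb.integrable ν)
  unfold tilt
  simp only [mul_sub, Real.exp_sub]
  rw [integral_div, cz_step ν m H hl y, mul_inv_cancel_left₀ hm, Real.exp_log hp, div_self hp.ne']

theorem T_bm_param (hH : BM H) {β : Type*} [MeasurableSpace β] {g : β → (Fin K → X) → ℝ}
    (hg : BM fun p : β × (Fin K → X) => g p.1 p.2) {l : ℕ} (hl : l ≤ K) :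
    BM fun p : β × (Fin K → X) => T ν m H l (g p.1) p.2 := by
  induction hl using Nat.decreasingInduction with
  | self => simpa [T_top] using hg
  | of_succ l hl ih =>
    simp only [T_step ν m H hl]
    exact (((tilt_bm hH hl).comp (φ := fun q : (β × (Fin K → X)) × X => (q.1.2, q.2))
      (by fun_prop)).mul (ih.comp (φ := fun q : (β × (Fin K → X)) × X =>
        (q.1.1, upd q.1.2 l q.2))
      (measurable_fst.fst.prodMk ((measurable_upd l).comp
        (measurable_fst.snd.prodMk measurable_snd))))).integral ν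

theorem T_bm (hH : BM H) {g : (Fin K → X) → ℝ} (hg : BM g) {l : ℕ} (hl : l ≤ K) :
    BM (T ν m H l g) :=
  (T_bm_param (β := Unit) hH (g := fun _ => g) (hg.comp measurable_snd) hl).comp
    (φ := fun y => ((), y)) measurable_prodMk_left

theorem T_integrand_bm (hH : BM H) {g : (Fin K → X) → ℝ} (hg : BM g) {l : ℕ} (hl : l < K)
    (y : Fin K → X) : BM fun x => tilt ν m H l y x * T ν m H (l + 1) g (upd y l x) :=
  (((tilt_bm hH hl).mul ((T_bm hH hg hl).comp (measurable_upd l)))).comp
    (φ := fun x => (y, x)) measurable_prodMk_left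

omit [IsProbabilityMeasure ν] in
theorem T_const_mul (g : (Fin K → X) → ℝ) (c : ℝ) {l : ℕ} (hl : l ≤ K) (y : Fin K → X) :
    T ν m H l (fun z => c * g z) y = c * T ν m H l g y := by
  induction hl using Nat.decreasingInduction generalizing y with
  | self => simp [T_top]
  | of_succ l hl ih => simp only [T_step ν m H hl, ih, mul_left_comm _ c, integral_const_mul]

theorem T_add (hH : BM H) {g g' : (Fin K → X) → ℝ} (hg : BM g) (hg' : BM g') {l : ℕ}
    (hl : l ≤ K) (y : Fin K → X) :
    T ν m H l (fun z => g z + g' z) y = T ν m H l g y + T ν m H l g' y := by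
  induction hl using Nat.decreasingInduction generalizing y with
  | self => simp [T_top]
  | of_succ l hl ih =>
    simp only [T_step ν m H hl, ih, mul_add]
    exact integral_add ((T_integrand_bm hH hg hl y).integrable ν)
      ((T_integrand_bm hH hg' hl y).integrable ν)

theorem T_one (hH : BM H) (hm : ∀ l, m l ≠ 0) {l : ℕ} (hl : l ≤ K) (y : Fin K → X) :
    T ν m H l (fun _ => 1) y = 1 := by
  induction hl using Nat.decreasingInduction generalizing y with
  | self => simp [T_top]
  | of_succ l hl ih =>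
    simp only [T_step ν m H hl, ih, mul_one]
    exact tilt_integral hH hl (hm l) y

theorem T_le (hH : BM H) (hm : ∀ l, m l ≠ 0) {g : (Fin K → X) → ℝ} {B : ℝ}
    (hB : ∀ z, |g z| ≤ B) {l : ℕ} (hl : l ≤ K) (y : Fin K → X) : |T ν m H l g y| ≤ B := by
  induction hl using Nat.decreasingInduction generalizing y with
  | self => simpa [T_top] using hB y
  | of_succ l hl ih =>
    rw [T_step ν m H hl]
    have ht : BM fun x => tilt ν m H l y x :=
      (tilt_bm hH hl).comp (φ := fun x => (y, x)) measurable_prodMk_left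
    have := norm_integral_le_of_norm_le ((ht.integrable ν).mul_const B)
      (f := fun x => tilt ν m H l y x * T ν m H (l + 1) g (upd y l x)) (ae_of_all _ fun x => by
        rw [Real.norm_eq_abs, abs_mul, abs_of_pos (show 0 < tilt ν m H l y x from Real.exp_pos _)]
        exact mul_le_mul_of_nonneg_left (ih _) (Real.exp_pos _).le)
    rwa [integral_mul_const, tilt_integral hH hl (hm l), one_mul, Real.norm_eq_abs] at this

variable {s : Set ℝ} {Hf Hf' : ℝ → (Fin K → X) → ℝ}

theorem cz_smooth (hs : IsOpen s) (hm : ∀ l, m l ≠ 0) (hH : Smooth s Hf Hf') {l : ℕ}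
    (hl : l ≤ K) :
    Smooth s (fun t => cz ν m (Hf t) l) fun t => T ν m (Hf t) l (Hf' t) := by
  induction hl using Nat.decreasingInduction with
  | self => exact hH.congr (fun t a => by rw [cz_top]) fun t _ a => by rw [T_top]
  | of_succ l hl ih =>
    have hA := ((ih.comp (measurable_upd l)).const_mul (m l))
    obtain ⟨B, hB⟩ := hA.bound
    have hlo : ∀ t ∈ s, ∀ y, Real.exp (-B) ≤
        ∫ x, Real.exp (m l * cz ν m (Hf t) (l + 1) (upd y l x)) ∂ν := fun t ht y => by
      refine le_trans (le_of_eq (by simp)) (integral_mono_ae (integrable_const (Real.exp (-B)))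
        (((hA.exp.bm ht).1.comp (φ := fun x => (y, x)) measurable_prodMk_left).integrable ν)
        (ae_of_all _ fun x => ?_))
      exact Real.exp_le_exp.2 (abs_le.1 (hB t ht (y, x)).1).1
    refine (((hA.exp.integral hs ν).log (Real.exp_pos (-B)) hlo).const_mul (m l)⁻¹).congr
      (fun t y => cz_step ν m (Hf t) hl y) fun t ht y => ?_
    have hp := (Real.exp_pos (-B)).trans_le (hlo t ht y)
    rw [T_step ν m (Hf t) hl, ← mul_div_assoc, ← integral_const_mul, ← integral_div]
    refine integral_congr_ae (ae_of_all _ fun x => ?_)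
    simp only [tilt, mul_sub, Real.exp_sub, cz_step ν m (Hf t) hl y,
      mul_inv_cancel_left₀ (hm l), Real.exp_log hp]
    have := hm l
    field_simp

theorem score_bm (hs : IsOpen s) (hm : ∀ l, m l ≠ 0) (hH : Smooth s Hf Hf') {t : ℝ}
    (ht : t ∈ s) (l : ℕ) : BM (score ν m (Hf t) (Hf' t) l) :=
  BM.sum _ fun j hj => (((cz_smooth hs hm hH (Finset.mem_Ico.1 hj).2).bm ht).2.sub
    ((cz_smooth hs hm hH (Finset.mem_Ico.1 hj).2.le).bm ht).2).const_mul (m j)

theorem T_smooth (hs : IsOpen s) (hm : ∀ l, m l ≠ 0) (hH : Smooth s Hf Hf') {β : Type*}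
    [MeasurableSpace β] {g g' : ℝ → β → (Fin K → X) → ℝ}
    (hg : Smooth s (fun t (p : β × (Fin K → X)) => g t p.1 p.2) fun t p => g' t p.1 p.2)
    {l : ℕ} (hl : l ≤ K) :
    Smooth s (fun t (p : β × (Fin K → X)) => T ν m (Hf t) l (g t p.1) p.2) fun t p =>
      T ν m (Hf t) l (fun z => g' t p.1 z + g t p.1 z * score ν m (Hf t) (Hf' t) l z) p.2 := by
  induction hl using Nat.decreasingInduction with
  | self =>
    exact hg.congr (fun t a => by rw [T_top]) fun t _ a => by rw [T_top]; simp [score]
  | of_succ l hl ih =>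
    have hd := ((((cz_smooth (ν := ν) hs hm hH hl).comp (measurable_upd l)).sub
      ((cz_smooth (ν := ν) hs hm hH hl.le).comp
        (φ := Prod.fst (β := X)) measurable_fst)).const_mul (m l)).exp
    have hf := ((hd.comp (φ := fun q : (β × (Fin K → X)) × X => (q.1.2, q.2)) (by fun_prop)).mul
      (ih.comp (φ := fun q : (β × (Fin K → X)) × X => (q.1.1, upd q.1.2 l q.2))
      (measurable_fst.fst.prodMk ((measurable_upd l).comp
        (measurable_fst.snd.prodMk measurable_snd))))).integral hs ν
    refine hf.congr (fun t p => T_step ν m (Hf t) hl _ _) fun t ht p => ?_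
    rw [T_step ν m (Hf t) hl]
    refine integral_congr_ae (ae_of_all _ fun x => ?_)
    obtain ⟨q, y⟩ := p
    simp only [tilt]
    set c := m l * (T ν m (Hf t) (l + 1) (Hf' t) (upd y l x) - T ν m (Hf t) l (Hf' t) y)
      with hc
    have hH' := (hH.bm ht).1
    have hgq : BM (g t q) := ((hg.bm ht).1).comp (φ := fun z => (q, z)) measurable_prodMk_left
    have hgq' : BM (g' t q) := ((hg.bm ht).2).comp (φ := fun z => (q, z)) measurable_prodMk_left
    have e : T ν m (Hf t) (l + 1)
        (fun z => g' t q z + g t q z * score ν m (Hf t) (Hf' t) l z) (upd y l x) =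
      T ν m (Hf t) (l + 1)
        (fun z => g' t q z + g t q z * score ν m (Hf t) (Hf' t) (l + 1) z) (upd y l x) +
      c * T ν m (Hf t) (l + 1) (g t q) (upd y l x) := by
      rw [← T_const_mul (g t q) c hl, ← T_add hH'
        (hgq'.add (hgq.mul (score_bm hs hm hH ht (l + 1)))) (hgq.const_mul c) hl]
      refine T_congr hl fun z hz => ?_
      rw [score, Finset.sum_eq_sum_Ico_succ_bot hl, ← score,
        T_indep (Nat.succ_le_of_lt hl) _ hz,
        T_indep hl.le (Hf' t) (fun i hi => (hz i (hi.trans (Nat.lt_succ_self l))).trans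
          (agree_upd y x i hi)), ← hc]
      ring
    rw [e, hc]
    ring

end Vale.Agent.P168.TreeRep
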