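import Vale.Agent.P168.TreeRep.Ops

/-!
P168, tree representation: without a factor, the mean over trees is the mean over independent
labels of the nodes under the law of the trees.
-/

open MeasureTheory ProbabilityTheory Filter Topology Finset

noncomputable section

namespace Vale.Agent.P168.TreeRep

open Lvls

variable {K n : ℕ} {X : Type} [MeasurableSpace X]

/-- The representative of the node at level `l + 1` of a replica. -/
def repr (U : Lvls K n) (a : Fin n) (l : ℕ) : Fin n := (U.node a (l + 1)).min.getD a

/-- The labels on the paths of the replicas. -/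
def paths (U : Lvls K n) (η : Fin K → Fin n → X) (a : Fin n) : Fin K → X :=
  fun l => η l (repr U a l)

/-- Independent labels of the nodes. -/
def labels (ν : Measure X) (K n : ℕ) : Measure (Fin K → Fin n → X) :=
  Measure.pi fun _ => Measure.pi fun _ => ν

theorem min_getD {α : Type*} [LinearOrder α] {S : Finset α} {c d : α} (hc : c ∈ S)
    (h : ∀ x ∈ S, c ≤ x) : S.min.getD d = c := by
  have : S.min = (c : WithTop α) :=
    le_antisymm (Finset.min_le hc) (Finset.le_min fun x hx => WithTop.coe_le_coe.2 (h x hx))
  rw [this]
  rfl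

omit [MeasurableSpace X] in
theorem repr_spec {U : Lvls K n} (hU : U.IsTree) (a : Fin n) {l : ℕ} (hl : l < K) :
    repr U a l ∈ U.node a (l + 1) ∧ ∀ x ∈ U.node a (l + 1), repr U a l ≤ x := by
  obtain ⟨c, hc⟩ := Finset.min_of_nonempty ⟨a, mem_node_self hU a (Nat.succ_le_of_lt hl)⟩
  unfold repr
  rw [hc]
  exact ⟨Finset.mem_of_min hc, fun x hx => Finset.min_le_of_eq hx hc⟩

omit [MeasurableSpace X] in
theorem paths_ext {U : Lvls K n} (hU : U.IsTree) (b : Fin n) (l : Fin (K + 1))
    (η : Fin K → Fin n → X) (z : Fin K → X) :
    paths (Lvls.ext U (U.rowOf b l)) (fun i => Fin.snoc (η i) (z i)) =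
      Fin.snoc (paths U η) (glue (l : ℕ) (paths U η b) z) := by
  funext a i
  have hnode : ∀ c x : Fin n, (x.castSucc ∈ (Lvls.ext U (U.rowOf b l)).node c.castSucc (i + 1)) ↔
      x ∈ U.node c (i + 1) := fun c x => by simp [node]
  cases a using Fin.lastCases with
  | cast a =>
    obtain ⟨h1, h2⟩ := repr_spec hU a i.isLt
    have : repr (Lvls.ext U (U.rowOf b l)) a.castSucc i = (repr U a i).castSucc :=
      min_getD ((hnode a _).2 h1) fun x hx => by
        cases x using Fin.lastCases with
        | last => exact Fin.le_last _
        | cast x => exact Fin.castSucc_le_castSucc_iff.2 (h2 x ((hnode a x).1 hx))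
    simp [paths, this]
  | last =>
    simp only [paths, Fin.snoc_last, glue]
    split_ifs with hi
    · obtain ⟨h1, h2⟩ := repr_spec hU b i.isLt
      have : repr (Lvls.ext U (U.rowOf b l)) (Fin.last n) i = (repr U b i).castSucc := by
        refine min_getD ?_ fun x hx => ?_
        · simp only [node, mem_filter, mem_univ, true_and] at h1
          simp only [node, mem_filter, mem_univ, true_and, ext_lc, rowOf, Fin.coe_min]
          omega
        · cases x using Fin.lastCases with
          | last => exact Fin.le_last _
          | cast x =>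
            refine Fin.castSucc_le_castSucc_iff.2 (h2 x ?_)
            simp only [node, mem_filter, mem_univ, true_and, ext_lc, rowOf, Fin.coe_min] at hx ⊢
            omega
      simp [this]
    · have : repr (Lvls.ext U (U.rowOf b l)) (Fin.last n) i = Fin.last n := by
        refine min_getD ?_ fun x hx => ?_
        · simp [node]
        · cases x using Fin.lastCases with
          | last => exact le_rfl
          | cast x =>
            simp only [node, mem_filter, mem_univ, true_and, ext_lc, rowOf, Fin.coe_min] at hx
            omega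
      simp [this]

/-- The law of the trees with one more replica, by rows. -/
theorem treeW_sum (hn : 1 ≤ n) (φ : Lvls K (n + 1) → ℝ) :
    ∑ U', treeW K (n + 1) U' * φ U' =
      ∑ U : Lvls K n, treeW K n U * ∑ p, rowW U p * φ (Lvls.ext U (U.rowOf p.1 p.2)) := by
  classical
  have key : ∀ U : Lvls K n, treeW K n U * ∑ p, rowW U p * φ (Lvls.ext U (U.rowOf p.1 p.2)) =
      ∑ U' : Lvls K (n + 1), if U'.init = U then treeW K (n + 1) U' * φ U' else 0 := by
    intro U
    by_cases hU : U.IsTree
    swap
    · rw [treeW_eq_zero hU, zero_mul]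
      refine (sum_eq_zero fun U' _ => ?_).symm
      split_ifs with h
      · rw [treeW_eq_zero fun h' : U'.IsTree => hU (h ▸ h'.init), zero_mul]
      · rfl
    set ψ : Fin n × Fin (K + 1) → Lvls K (n + 1) := fun p => Lvls.ext U (U.rowOf p.1 p.2) with hψ
    rw [mul_sum, ← sum_fiberwise univ ψ]
    refine sum_congr rfl fun U' _ => ?_
    by_cases h : U'.IsTree ∧ U'.init = U
    · obtain ⟨b, l, e⟩ := exists_rowOf hn h.1
      rw [h.2] at e
      have hset : univ.filter (fun p => ψ p = U') = U.node b l ×ˢ {l} := by
        ext ⟨b', l'⟩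
        simp only [mem_filter, mem_univ, true_and, mem_product, mem_singleton, hψ, ← e]
        constructor
        · intro he
          have hl : l' = l := by
            have h1 := sup_rowOf hU b' l'
            rw [he, sup_rowOf hU b l] at h1
            exact Fin.ext h1.symm
          subst hl
          have h1 := filter_rowOf (U := U) b' l'
          rw [he, filter_rowOf (U := U) b l'] at h1
          exact ⟨by rw [h1]; exact mem_node_self hU b' (Fin.is_le _), rfl⟩
        · rintro ⟨hb, rfl⟩
          congr 1
          funext x
          simp only [node, mem_filter, mem_univ, true_and] at hb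
          have h1 := hU.2.2 b b' x
          have h2 := hU.2.2 b' b x
          rw [hU.2.1 b' b] at h2
          simp only [Fin.le_def, Fin.coe_min] at h1 h2
          ext
          simp only [rowOf, Fin.coe_min]
          omega
      rw [if_pos h.2, treeW_succ hn h.1, h.2,
        sum_congr rfl (g := fun p : Fin n × Fin (K + 1) =>
          ((U.node p.1 p.2).card : ℝ)⁻¹ * (treeW K n U * (attach U' * φ U'))) fun p hp => by
          rw [mem_filter] at hp
          simp only [rowW]
          rw [show Lvls.ext U (U.rowOf p.1 p.2) = U' from hp.2]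
          ring,
        ← sum_mul, hset, sum_product,
        sum_congr rfl fun a ha => by rw [sum_singleton, node_eq hU ha],
        sum_const, nsmul_eq_mul, mul_inv_cancel₀ (by
          exact_mod_cast (node_pos hU b (Fin.is_le _)).ne'), one_mul, mul_assoc]
    · rw [sum_eq_zero fun p hp => absurd (by
        rw [mem_filter] at hp
        exact hp.2 ▸ ⟨isTree_rowOf hU p.1 p.2, init_ext U _⟩) h]
      split_ifs with h'
      · rw [treeW_eq_zero fun ht => h ⟨ht, h'⟩, zero_mul]
      · rfl
  simp only [key]
  rw [sum_comm]
  exact sum_congr rfl fun U' _ => by simp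

theorem treeW_one (φ : Lvls K 1 → ℝ) : ∑ U, treeW K 1 U * φ U = φ (one K) := by
  classical
  rw [sum_eq_single (one K) (fun U _ h => ?_) (fun h => absurd (mem_univ _) h)]
  · simp [treeW, one]
  · rw [treeW_eq_zero fun hU => h (funext fun a => funext fun b => by
      rw [Subsingleton.elim b a, hU.1 a]
      rfl), zero_mul]

variable (ν : Measure X) [IsProbabilityMeasure ν]

theorem integral_mp {α β : Type*} [MeasurableSpace α] [MeasurableSpace β] {μ : Measure α}
    {μ' : Measure β} {φ : α → β} (h : MeasurePreserving φ μ μ') {g : β → ℝ} (hg : Measurable g) :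
    ∫ a, g (φ a) ∂μ = ∫ b, g b ∂μ' := by
  rw [← h.map_eq, integral_map h.measurable.aemeasurable hg.aestronglyMeasurable]

omit [IsProbabilityMeasure ν] in
theorem measurable_glue (l : ℕ) :
    Measurable fun p : (Fin K → X) × (Fin K → X) => glue l p.1 p.2 := by
  refine measurable_pi_lambda _ fun i => ?_
  unfold glue
  split_ifs <;> fun_prop

theorem upd_mp {l : ℕ} (hl : l < K) :
    MeasurePreserving (fun p : X × (Fin K → X) => upd p.2 l p.1)
      (ν.prod (Measure.pi fun _ => ν)) (Measure.pi fun _ => ν) := by
  have hmeas : Measurable fun p : X × (Fin K → X) => upd p.2 l p.1 :=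
    (measurable_upd l).comp (measurable_snd.prodMk measurable_fst)
  refine ⟨hmeas, (Measure.pi_eq fun s hs => ?_).symm⟩
  rw [Measure.map_apply hmeas (MeasurableSet.univ_pi hs)]
  set j : Fin K := ⟨l, hl⟩
  have hpre : (fun p : X × (Fin K → X) => upd p.2 l p.1) ⁻¹' Set.univ.pi s =
      s j ×ˢ Set.univ.pi fun i => if i = j then Set.univ else s i := by
    ext ⟨x, y⟩
    simp only [Set.mem_preimage, Set.mem_univ_pi, Set.mem_prod, upd]
    refine ⟨fun h => ⟨by simpa [j] using h j, fun i => ?_⟩, fun h i => ?_⟩
    · split_ifs with e
      · exact Set.mem_univ _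
      · simpa [show (i : ℕ) ≠ l from fun e' => e (Fin.ext e')] using h i
    · split_ifs with e
      · rw [show i = j from Fin.ext e]; exact h.1
      · simpa [show i ≠ j from fun e' => e (by rw [e'])] using h.2 i
  rw [hpre, Measure.prod_prod, Measure.pi_pi,
    ← Finset.mul_prod_erase univ (fun i => ν (if i = j then Set.univ else s i)) (mem_univ j),
    ← Finset.mul_prod_erase univ (fun i => ν (s i)) (mem_univ j)]
  simp only [if_true, measure_univ, one_mul]
  congr 1
  refine prod_congr rfl fun i hi => ?_
  rw [if_neg (Finset.ne_of_mem_erase hi)]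

theorem snoc_mp (n : ℕ) :
    MeasurePreserving (fun p : (Fin K → Fin n → X) × (Fin K → X) =>
        fun i => (Fin.snoc (p.1 i) (p.2 i) : Fin (n + 1) → X))
      ((labels ν K n).prod (Measure.pi fun _ => ν)) (labels ν K (n + 1)) := by
  have hsn : MeasurePreserving (fun p : (Fin n → X) × X => (Fin.snoc p.1 p.2 : Fin (n + 1) → X))
      ((Measure.pi fun _ => ν).prod ν) (Measure.pi fun _ => ν) := by
    have hmeas : Measurable fun p : (Fin n → X) × X => (Fin.snoc p.1 p.2 : Fin (n + 1) → X) := by
      refine measurable_pi_lambda _ fun a => ?_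
      cases a using Fin.lastCases with
      | last => simpa using measurable_snd
      | cast a => simpa using (measurable_pi_apply a).fun_comp measurable_fst
    refine ⟨hmeas, (Measure.pi_eq fun s hs => ?_).symm⟩
    rw [Measure.map_apply hmeas (MeasurableSet.univ_pi hs)]
    have hpre : (fun p : (Fin n → X) × X => (Fin.snoc p.1 p.2 : Fin (n + 1) → X)) ⁻¹'
        Set.univ.pi s = (Set.univ.pi fun a => s a.castSucc) ×ˢ s (Fin.last n) := by
      ext ⟨y, x⟩
      simp only [Set.mem_preimage, Set.mem_univ_pi, Set.mem_prod, Fin.forall_fin_succ',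
        Fin.snoc_castSucc, Fin.snoc_last]
    rw [hpre, Measure.prod_prod, Measure.pi_pi, Fin.prod_univ_castSucc]
  exact (measurePreserving_pi _ _ fun _ => hsn).comp
    ((measurePreserving_arrowProdEquivProdArrow (Fin n → X) X (Fin K)
      (fun _ => Measure.pi fun _ => ν) fun _ => ν).symm _)

theorem T_zero {m : ℕ → ℝ} {g : (Fin K → X) → ℝ} (hg : BM g) {l : ℕ} (hl : l ≤ K)
    (y : Fin K → X) :
    T ν m (fun _ => 0) l g y = ∫ z, g (glue l y z) ∂Measure.pi fun _ => ν := by
  induction hl using Nat.decreasingInduction generalizing y with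
  | self =>
    have : ∀ z, glue K y z = y := fun z => funext fun i => if_pos i.isLt
    simp [T_top, this]
  | of_succ l hl ih =>
    have ht : ∀ x, tilt ν m (fun _ : Fin K → X => (0 : ℝ)) l y x = 1 := fun x => by
      simp [tilt, cz_zero hl, cz_zero hl.le]
    simp only [T_step ν m _ hl, ih, ht, one_mul]
    have he : ∀ x z, glue (l + 1) (upd y l x) z = glue l y (upd z l x) := fun x z => by
      funext i
      simp only [glue, upd]
      split_ifs <;> first | rfl | omega
    simp only [he]
    have hb : BM fun z => g (glue l y z) :=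
      hg.comp ((measurable_glue (K := K) l).comp measurable_prodMk_left)
    rw [← integral_mp (upd_mp ν hl) hb.1,
      integral_prod (fun p : X × (Fin K → X) => g (glue l y (upd p.2 l p.1)))
        ((hb.comp (upd_mp ν hl).measurable).integrable _)]

omit [IsProbabilityMeasure ν] in
theorem measurable_paths (U : Lvls K n) :
    Measurable fun η : Fin K → Fin n → X => paths U η :=
  measurable_pi_lambda _ fun a => measurable_pi_lambda _ fun l => by
    unfold paths
    fun_prop

/-- Without a factor, the mean over trees is the law of the trees with independent labels. -/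
theorem EX_zero (y0 : Fin K → X) : ∀ (n : ℕ)
    {f : Lvls K (n + 1) → (Fin (n + 1) → Fin K → X) → ℝ}, (∀ U, BM (f U)) →
    EX ν (fun _ => 0) y0 n f =
      ∑ U, treeW K (n + 1) U * ∫ η, f U (paths U η) ∂labels ν K (n + 1)
  | 0, f, hf => by
    have hb : BM fun z : Fin K → X => f (one K) fun _ => z :=
      (hf _).comp (measurable_pi_lambda _ fun _ => measurable_id)
    have e : MeasurePreserving (fun η : Fin K → Fin 1 → X => fun i => η i 0)
        (labels ν K 1) (Measure.pi fun _ => ν) :=
      measurePreserving_pi _ _ fun _ => measurePreserving_eval (fun _ => ν) 0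
    change T ν (mp K) _ 0 (fun y => f (one K) fun _ => y) y0 = _
    rw [T_zero ν hb (Nat.zero_le K), treeW_one (K := K)]
    simp only [show ∀ z, glue 0 y0 z = z from fun z => funext fun i => if_neg (Nat.not_lt_zero _)]
    rw [← integral_mp e hb.1]
    refine integral_congr_ae (ae_of_all _ fun η => ?_)
    refine congrArg (f (one K)) (funext fun a => funext fun i => ?_)
    simp [paths, Subsingleton.elim (repr (one K) a i) 0]
  | n + 1, f, hf => by
    have h0 : BM (fun _ : Fin K → X => (0 : ℝ)) := BM.const 0
    have hs : ∀ U : Lvls K (n + 1), ∀ p : Fin (n + 1) × Fin (K + 1), BM fun ys =>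
        T ν (mp K) (fun _ => 0) (p.2 : ℕ)
          (fun y => f (Lvls.ext U (U.rowOf p.1 p.2)) (Fin.snoc ys y)) (ys p.1) := fun U p =>
      (T_bm_param (ν := ν) h0 (g := fun ys y => f (Lvls.ext U (U.rowOf p.1 p.2)) (Fin.snoc ys y))
        ((hf _).comp measurable_snoc) (Fin.is_le p.2)).comp
        (φ := fun ys : Fin (n + 1) → Fin K → X => (ys, ys p.1)) (by fun_prop)
    rw [EX, EX_zero y0 n (f := step ν (fun _ => 0) f) fun U =>
        BM.sum _ fun p _ => (hs U p).const_mul _,
      treeW_sum (Nat.succ_pos n) fun U => ∫ η, f U (paths U η) ∂labels ν K (n + 1 + 1)]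
    refine sum_congr rfl fun U _ => ?_
    by_cases hU : U.IsTree
    swap
    · simp [treeW_eq_zero hU]
    congr 1
    have : IsProbabilityMeasure (labels ν K (n + 1)) := by unfold labels; infer_instance
    simp only [step]
    rw [integral_finsetSum _ fun p _ =>
      (((hs U p).comp (measurable_paths U)).const_mul _).integrable _]
    refine sum_congr rfl fun p _ => ?_
    rw [integral_const_mul]
    congr 1
    set V := Lvls.ext U (U.rowOf p.1 p.2) with hV
    have hb : BM fun q : (Fin K → Fin (n + 1) → X) × (Fin K → X) =>
        f V (paths V fun i => Fin.snoc (q.1 i) (q.2 i)) :=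
      (hf V).comp ((measurable_paths V).comp (snoc_mp ν (n + 1)).measurable)
    rw [← integral_mp (snoc_mp ν (n + 1)) ((hf V).comp (measurable_paths V)).1,
      integral_prod _ (hb.integrable _)]
    refine integral_congr_ae (ae_of_all _ fun η => ?_)
    simp only [hV, paths_ext hU]
    have hg : BM fun y => f (Lvls.ext U (U.rowOf p.1 p.2)) (Fin.snoc (paths U η) y) :=
      (hf _).comp (φ := fun y => Fin.snoc (paths U η) y)
        (measurable_snoc.comp (measurable_prodMk_left (x := paths U η)))
    exact T_zero ν hg (Fin.is_le p.2) _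

end Vale.Agent.P168.TreeRep
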